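import Vale.Agent.P269.Prj.Quo
import Vale.Agent.P287Q.G.Gen.Num
import Vale.Agent.P269.Gen.Act

/-!
# The total space of a family of targets: action, pull-backs, line bundles
-/

set_option linter.unusedSectionVars false
set_option linter.style.haveILetI false

namespace Vale.Agent.P269

open P291Z Set Function Topology Filter Holo Mono Tq Fock

namespace Tq

variable {X Y : Type} [TopologicalSpace X] [TopologicalSpace Y]

theorem hpull_eq (f : C(X, Y)) (c : H Y) : hpull f c = H.map f c := by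
  rw [hpull, ← H.map_hcls f (DgI.rep_cocycle c), DgI.hcls_rep]

theorem parH_deg {k : ℤ} {c : H X} (h : H.IsDeg k c) : (parH X).σ c = (-1 : ℂ) ^ k • c := by
  obtain ⟨a, h1, h2, rfl⟩ := H.isDeg_iff.1 h
  rw [parH_hcls h1, h2.par_eq, hcls_smul _ h1]

theorem parH_map (f : C(X, Y)) (c : H Y) : (parH X).σ (H.map f c) = H.map f ((parH Y).σ c) :=
  H.induction_deg (P := fun c => (parH X).σ (H.map f c) = H.map f ((parH Y).σ c)) c (by simp)
    (fun _ _ h h' => by simp only [map_add, h, h']) fun k => by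
      rw [parH_deg ((H.isDeg_comp k c).map f), parH_deg (H.isDeg_comp k c)]
      exact (map_smul (H.mapA f) _ _).symm

theorem isEv_map (f : C(X, Y)) : IsEv (parH Y) (parH X) (H.mapA f).toLinearMap := parH_map f

theorem parH_mul (a b : H X) : (parH X).σ (a * b) = (parH X).σ a * (parH X).σ b := by
  refine H.induction_deg (P := fun a => (parH X).σ (a * b) = (parH X).σ a * (parH X).σ b) a
    (by simp) (fun _ _ h h' => by simp only [add_mul, map_add, h, h']) fun k => ?_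
  refine H.induction_deg (P := fun b => (parH X).σ (_ * b) = (parH X).σ _ * (parH X).σ b) b
    (by simp) (fun _ _ h h' => by simp only [mul_add, map_add, h, h']) fun l => ?_
  rw [parH_deg ((H.isDeg_comp k a).mul (H.isDeg_comp l b)), parH_deg (H.isDeg_comp k a),
    parH_deg (H.isDeg_comp l b), zpow_add₀ (by simp), smul_mul_smul_comm]

theorem parH_Hev {c : H X} (h : c ∈ Ch.Hev X) : (parH X).σ c = c :=
  Ch.Hev.induction (P := fun c => (parH X).σ c = c) h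
    (fun k _ h => by rw [parH_deg h, (even_two_mul k).neg_one_zpow, one_smul])
    fun _ _ h h' => by rw [map_add, h, h']

end Tq

variable {S Λ R J K S' Λ' R' J' S'' Λ'' R'' J'' : Type} [Fintype S] [Fintype Λ] [Fintype R]
  [Fintype J] [Fintype K] [Fintype S'] [Fintype Λ'] [Fintype R'] [Fintype J'] [Fintype S'']
  [Fintype Λ''] [Fintype R''] [Fintype J'']

/-- the character with exponents `ψ`, `χ` -/
noncomputable def chT (ψ : S → ℤ) (χ : R → ℤ) (t : (S → ℂ) × (R → ℂ)) : ℂ :=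
  (∏ i, t.1 i ^ ψ i) * ∏ i, t.2 i ^ χ i

theorem isUnit_T {t : (S → ℂ) × (R → ℂ)} : IsUnit t ↔ (∀ i, t.1 i ≠ 0) ∧ ∀ i, t.2 i ≠ 0 := by
  rw [Prod.isUnit_iff, isUnit_pi_iff, isUnit_pi_iff]

theorem an_chT {P : Type*} [NormedAddCommGroup P] [NormedSpace ℂ P] {t : P → (S → ℂ) × (R → ℂ)}
    {q : P} (h : AnalyticAt ℂ t q) (hu : IsUnit (t q)) (ψ : S → ℤ) (χ : R → ℤ) :
    AnalyticAt ℂ (fun y => chT ψ χ (t y)) q :=
  (an_prod_zpow (analyticAt_fst.comp h) (isUnit_T.1 hu).1 _).mul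
    (an_prod_zpow (analyticAt_snd.comp h) (isUnit_T.1 hu).2 _)

theorem hm_chT (ψ : S → ℤ) (χ : R → ℤ) : Hm (chT ψ χ) :=
  ⟨by simp [chT], fun a b _ _ => by
    simp only [chT, Prod.fst_mul, Prod.snd_mul, prod_zpow_mul, mul_mul_mul_comm],
    fun _ ha => (an_chT analyticAt_id ha ψ χ).continuousAt⟩

theorem chT_add (ψ ψ' : S → ℤ) (χ χ' : R → ℤ) {t : (S → ℂ) × (R → ℂ)} (h : IsUnit t) :
    chT (ψ + ψ') (χ + χ') t = chT ψ χ t * chT ψ' χ' t := by
  simp only [chT, Pi.add_apply, zpow_add₀ ((isUnit_T.1 h).1 _), zpow_add₀ ((isUnit_T.1 h).2 _),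
    Finset.prod_mul_distrib, mul_mul_mul_comm]

theorem chT_zero (t : (S → ℂ) × (R → ℂ)) : chT 0 0 t = 1 := by simp [chT]

theorem chT_ne (ψ : S → ℤ) (χ : R → ℤ) {t : (S → ℂ) × (R → ℂ)} (h : IsUnit t) : chT ψ χ t ≠ 0 :=
  ((hm_chT ψ χ).isUnit h).ne_zero

namespace Wt

variable (F : Wt S Λ R J) {F' : Wt S' Λ' R' J'} {F'' : Wt S'' Λ'' R'' J''}
  {A A₁ : Set ((Λ → ℂ) × (J → ℂ))} {A' : Set ((Λ' → ℂ) × (J' → ℂ))}
  {A'' : Set ((Λ'' → ℂ) × (J'' → ℂ))} {f : (Λ → ℂ) × (J → ℂ) → (Λ' → ℂ) × (J' → ℂ)}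
  {f' : (Λ' → ℂ) × (J' → ℂ) → (Λ'' → ℂ) × (J'' → ℂ)}
  {θ : (S → ℂ) × (R → ℂ) → (S' → ℂ) × (R' → ℂ)}

theorem actT_fst (t z) : (F.actT t z).1 = F.actL t.1 z.1 := rfl

theorem actT_snd (t z j) : (F.actT t z).2 j = chT (F.wt j) (F.w j) t * z.2 j := rfl

section an

variable {P : Type*} [NormedAddCommGroup P] [NormedSpace ℂ P] {q : P}

theorem an_actL {t : P → S → ℂ} {l : P → Λ → ℂ} (ht : AnalyticAt ℂ t q) (hl : AnalyticAt ℂ l q)
    (hu : IsUnit (t q)) : AnalyticAt ℂ (fun y => F.actL (t y) (l y)) q :=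
  analyticAt_pi_iff.2 fun a =>
    (an_prod_zpow ht (isUnit_pi_iff.1 hu) _).mul (analyticAt_pi_iff.1 hl a)

theorem an_actT {t : P → (S → ℂ) × (R → ℂ)} {z : P → (Λ → ℂ) × (J → ℂ)} (ht : AnalyticAt ℂ t q)
    (hz : AnalyticAt ℂ z q) (hu : IsUnit (t q)) : AnalyticAt ℂ (fun y => F.actT (t y) (z y)) q :=
  (F.an_actL (analyticAt_fst.comp ht) (analyticAt_fst.comp hz) (Prod.isUnit_iff.1 hu).1).prod
    (analyticAt_pi_iff.2 fun j =>
      (an_chT ht hu _ _).mul (analyticAt_pi_iff.1 (analyticAt_snd.comp hz) j))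

end an

instance isActT : IsAct F.actT univ :=
  ⟨fun x _ => F.actT_one x, fun a b _ _ x _ => F.actT_mul a b x, fun _ _ _ _ => trivial,
    fun _ ha _ _ => F.an_actT analyticAt_fst analyticAt_snd ha⟩

instance isActL : IsAct F.actL univ :=
  ⟨fun x _ => F.actL_one x, fun a b _ _ x _ => F.actL_mul a b x, fun _ _ _ _ => trivial,
    fun _ ha _ _ => F.an_actL analyticAt_fst analyticAt_snd ha⟩

theorem lin_actL (a : S → ℂ) (_ : IsUnit a) : IsLinearMap ℂ (F.actL a) :=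
  ⟨fun _ _ => funext fun _ => mul_add _ _ _, fun _ _ => funext fun _ => mul_left_comm _ _ _⟩

theorem lin_actT (a : (S → ℂ) × (R → ℂ)) (_ : IsUnit a) : IsLinearMap ℂ (F.actT a) :=
  ⟨fun _ _ => Prod.ext (funext fun _ => mul_add _ _ _) (funext fun _ => mul_add _ _ _),
    fun _ _ => Prod.ext (funext fun _ => mul_left_comm _ _ _) (funext fun _ => mul_left_comm _ _ _)⟩

variable {F}

/-- `pb` is the pull-back along the induced map. -/
theorem pb_eq (h : Eqv F.actT F'.actT A A' f) (c : H (F'.X A')) :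
    F.pb F' f A c = H.map h.qm c := by
  rw [pb, dif_pos h.maps, ← hpull_eq]
  exact congrArg (hpull · c) (funext h.qm_out)

theorem pb_pb (h : Eqv F.actT F'.actT A A' f) (h' : Eqv F'.actT F''.actT A' A'' f')
    (c : H (F''.X A'')) : F.pb F' f A (F'.pb F'' f' A' c) = F.pb F'' (fun z => f' (f z)) A c := by
  rw [pb_eq h, pb_eq h', pb_eq (h.comp h'), h.map_map]

theorem rs_eq (h : A₁ ⊆ A) (c : H (F.X A)) : F.rs h c = H.map (qinc F.actT h) c := rfl

theorem pb_id (h : A₁ ⊆ A) (c : H (F.X A)) : F.pb F id A₁ c = F.rs h c := pb_eq (.incl h) c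

theorem rs_pb (h : Eqv F.actT F'.actT A A' f) (e : A₁ ⊆ A) (c : H (F'.X A')) :
    F.rs e (F.pb F' f A c) = F.pb F' f A₁ c := (pb_id e _).symm.trans (pb_pb (.incl e) h c)

theorem pb_rs {A₁' : Set _} (h : Eqv F.actT F'.actT A A₁' f) (e : A₁' ⊆ A') (c : H (F'.X A')) :
    F.pb F' f A (F'.rs e c) = F.pb F' f A c := by rw [← pb_id e]; exact pb_pb h (.incl e) c

theorem rs_rs {A₂ : Set _} (e : A₂ ⊆ A₁) (h : A₁ ⊆ A) (c : H (F.X A)) :
    F.rs e (F.rs h c) = F.rs (e.trans h) c := (Eqv.incl e).map_map (.incl h) c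

theorem rs_self (h : A ⊆ A) (c : H (F.X A)) : F.rs h c = c :=
  H.map_id ((Eqv.incl h).qm_id fun x _ => ⟨1, isUnit_one, (F.actT_one x).symm⟩) c

theorem lc_eq (ψ : S → ℤ) (χ : R → ℤ) : F.lc A ψ χ = lcq F.actT A (chT ψ χ) := rfl

theorem intX_eq [CompactSpace (F.X A)] (c : H (F.X A)) :
    F.intX A c = Loc.intg (fnd F.actT A) c := ev_rep _ c

theorem intB_eq {B : Set (Λ → ℂ)} [CompactSpace (F.Bs B)] (c : H (F.Bs B)) :
    F.intB B c = Loc.intg (fnd F.actL B) c := ev_rep _ c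

variable [FP F.actT A] [FP F'.actT A']

variable (F A) in
/-- the first Chern class as a homomorphism to the even classes -/
noncomputable def lce : (S → ℤ) × (R → ℤ) →+ Ch.Hev (F.X A) :=
  AddMonoidHom.mk' (fun x => Tq.lce F.actT A (hm_chT x.1 x.2)) fun x y => Subtype.ext (by
    rw [Subalgebra.coe_add, lce_val, lce_val, lce_val, ← lcq_mul (hm_chT _ _) (hm_chT _ _)]
    exact lcq_congr ((hm_chT _ _).mul' (hm_chT _ _)) fun _ => chT_add _ _ _ _)

theorem lce_def (ψ : S → ℤ) (χ : R → ℤ) : F.lce A (ψ, χ) = Tq.lce F.actT A (hm_chT ψ χ) := rfl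

theorem lce_val (ψ : S → ℤ) (χ : R → ℤ) : (F.lce A (ψ, χ)).1 = F.lc A ψ χ := Tq.lce_val _

theorem lc_deg (ψ : S → ℤ) (χ : R → ℤ) : H.IsDeg 2 (F.lc A ψ χ) := lcq_deg (hm_chT ψ χ)

theorem lc_mem (ψ : S → ℤ) (χ : R → ℤ) : F.lc A ψ χ ∈ Ch.Hev _ := lcq_mem (hm_chT ψ χ)

theorem lce_deg (x : (S → ℤ) × (R → ℤ)) : F.lce A x ∈ Ch.Hev.deg _ 1 :=
  Ch.c1_deg (Y := sp F.actT A) _

theorem lc_comm (ψ : S → ℤ) (χ : R → ℤ) (c : H (F.X A)) : F.lc A ψ χ * c = c * F.lc A ψ χ :=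
  Ch.Hev.commute (lc_mem ψ χ) c

theorem lc_add (ψ ψ' : S → ℤ) (χ χ' : R → ℤ) :
    F.lc A (ψ + ψ') (χ + χ') = F.lc A ψ χ + F.lc A ψ' χ' := by
  simp only [← lce_val]
  exact congrArg Subtype.val (map_add (F.lce A) (ψ, χ) (ψ', χ'))

theorem lc_zero : F.lc A 0 0 = 0 :=
  (lce_val 0 0).symm.trans (congrArg Subtype.val (map_zero (F.lce A)))

theorem lc_neg (ψ : S → ℤ) (χ : R → ℤ) : F.lc A (-ψ) (-χ) = -F.lc A ψ χ := by
  simp only [← lce_val]
  exact congrArg Subtype.val (map_neg (F.lce A) (ψ, χ))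

theorem lc_sub (ψ ψ' : S → ℤ) (χ χ' : R → ℤ) :
    F.lc A (ψ - ψ') (χ - χ') = F.lc A ψ χ - F.lc A ψ' χ' := by
  simp only [← lce_val]
  exact congrArg Subtype.val (map_sub (F.lce A) (ψ, χ) (ψ', χ'))

theorem lc_zsmul (n : ℤ) (ψ : S → ℤ) (χ : R → ℤ) : F.lc A (n • ψ) (n • χ) = n • F.lc A ψ χ := by
  simp only [← lce_val]
  exact congrArg Subtype.val (map_zsmul (F.lce A) n (ψ, χ))

theorem lc_sum {I : Type*} (s : Finset I) (ψ : I → S → ℤ) (χ : I → R → ℤ) :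
    F.lc A (∑ i ∈ s, ψ i) (∑ i ∈ s, χ i) = ∑ i ∈ s, F.lc A (ψ i) (χ i) := by
  simp only [← lce_val]
  rw [prod_mk_sum, map_sum, AddSubmonoidClass.coe_finsetSum]

/-- **naturality of the line bundles** -/
theorem map_lc (h : Eqh F.actT F'.actT A A' θ f) {ψ χ ψ' χ'}
    (e : ∀ t, IsUnit t → chT ψ' χ' (θ t) = chT ψ χ t) :
    H.map h.toEqv.qm (F'.lc A' ψ' χ') = F.lc A ψ χ :=
  (h.map_lcq (hm_chT ψ' χ')).trans (lcq_congr (hm_chT ψ χ) e)

theorem pb_lc (h : Eqh F.actT F'.actT A A' θ f) {ψ χ ψ' χ'}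
    (e : ∀ t, IsUnit t → chT ψ' χ' (θ t) = chT ψ χ t) :
    F.pb F' f A (F'.lc A' ψ' χ') = F.lc A ψ χ := (pb_eq h.toEqv _).trans (map_lc h e)

theorem rs_lc [FP F.actT A₁] (h : A₁ ⊆ A) (ψ χ) : F.rs h (F.lc A ψ χ) = F.lc A₁ ψ χ :=
  map_lc (.incl h) fun _ _ => rfl

omit [FP F.actT A] in
/-- the fields are sections -/
theorem sec_fld {I : Type} (y : I → J) :
    Tq.Sec F.actT A (fun i => chT (F.wt (y i)) (F.w (y i))) fun z i => z.2 (y i) :=
  ⟨fun _ => hm_chT _ _, by fun_prop, fun _ _ _ _ _ => rfl⟩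

/-- **fields without common zero** -/
theorem prod_lce_eq_zero {I : Type} [Fintype I] (y : I → J) (h : ∀ z ∈ A, ∃ i, z.2 (y i) ≠ 0) :
    ∏ i, F.lce A (F.wt (y i), F.w (y i)) = 0 :=
  (sec_fld y).prod_eq_zero fun z hz e => (h z hz).elim fun i k => k (congrFun e i)

theorem lc_eq_zero {j : J} (h : ∀ z ∈ A, z.2 j ≠ 0) : F.lc A (F.wt j) (F.w j) = 0 := by
  have := prod_lce_eq_zero (F := F) (fun _ : Unit => j) fun z hz => ⟨(), h z hz⟩
  rw [Fintype.prod_unique] at this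
  rw [← lce_val, this, Subalgebra.coe_zero]

end Wt

namespace Fam

variable {F : Fam S Λ R J K}

theorem an_eqn (k : K) (z : (Λ → ℂ) × (J → ℂ)) : AnalyticAt ℂ (fun z => F.eqn z k) z := by
  simp only [eqn, eval_fib]
  exact Finset.analyticAt_fun_sum _ fun α _ =>
    ((AnalyticOnNhd.eval_mvPolynomial _ _ trivial).comp analyticAt_fst).mul
      (Finset.analyticAt_fun_prod _ fun j _ => (analyticAt_pi_iff.1 analyticAt_snd j).fun_pow _)

theorem isClosed_fld (T : Set J) : IsClosed {z : (Λ → ℂ) × (J → ℂ) | ∀ j ∈ T, z.2 j = 0} := by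
  simp only [ofPred_forall]
  exact isClosed_iInter fun j => isClosed_iInter fun _ => isClosed_eq (by fun_prop) continuous_const

theorem Inv.lc_bs (h : F.Inv) : IsLocallyClosed F.bs :=
  (h.lcB.preimage continuous_fst).inter (h.closedE.inter (isClosed_fld F.zer)).isLocallyClosed

theorem Inv.lc_cone (h : F.Inv) : IsLocallyClosed F.cone := by
  rw [show F.cone = F.bs ∩ (F.U ∩ ⋂ k, {z | F.eqn z k = 0}) from
    Set.ext fun z => by simp [mem_cone]]
  exact h.lc_bs.inter (h.openU.isLocallyClosed.inter (isClosed_iInter fun k => isClosed_eq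
    (continuous_iff_continuousAt.2 fun z => (an_eqn k z).continuousAt)
      continuous_const).isLocallyClosed)

/-- the equations are sections -/
theorem Inv.sec_eqn (h : F.Inv) (A : Set _) {I : Type} (q : I → K) :
    Tq.Sec F.actT A (fun i => chT (F.wk (q i)) (F.χ (q i))) fun z i => F.eqn z (q i) :=
  ⟨fun _ => hm_chT _ _, continuousOn_pi.2 fun _ z _ => (an_eqn _ z).continuousAt.continuousWithinAt,
    fun _ ha z _ _ => h.eval_act ha z _⟩

variable [DecidableEq R]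

theorem Good.fpB (h : F.Good) : FP F.actL F.B :=
  fp_of h.invB h.lcB h.freeB fun x a x₀ x₁ h1 h2 h3 h4 h5 h6 h7 => by
    obtain ⟨C, hC⟩ := h.properB a x x₀ x₁ h1 h2 h3 h4 h5 h6
    obtain ⟨n, hn⟩ := (h7.eventually_gt_atTop (max C 0)).exists
    exact hn.not_ge ((pi_norm_le_iff_of_nonneg (le_max_right _ _)).2 fun i =>
      (hC n i).1.trans (le_max_left _ _))

theorem Good.prp (h : F.Good) (x : ℕ → (Λ → ℂ) × (J → ℂ)) (a : ℕ → (S → ℂ) × (R → ℂ)) (x₀ x₁)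
    (h1 : ∀ n, IsUnit (a n)) (h2 : ∀ n, x n ∈ F.cone) (h3 : x₀ ∈ F.cone) (h4 : x₁ ∈ F.cone)
    (h5 : Tendsto x atTop (𝓝 x₀)) (h6 : Tendsto (fun n => F.actT (a n) (x n)) atTop (𝓝 x₁))
    (h7 : Tendsto (fun n => ‖a n‖) atTop atTop) : False := by
  obtain ⟨C, hC⟩ := h.properB (fun n => (a n).1) (fun n => (x n).1) x₀.1 x₁.1
    (fun n => (Prod.isUnit_iff.1 (h1 n)).1) (fun n => (h2 n).1) h3.1 h4.1
    ((continuous_fst.tendsto _).comp h5) ((continuous_fst.tendsto _).comp h6)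
  have k : ∀ n, ‖(a n).1‖ ≤ max C 0 := fun n =>
    (pi_norm_le_iff_of_nonneg (le_max_right _ _)).2 fun i => (hC n i).1.trans (le_max_left _ _)
  obtain ⟨τ, -, φ, k1, k2⟩ := (isCompact_closedBall (0 : S → ℂ) _).tendsto_subseq
    fun n => mem_closedBall_zero_iff.2 (k n)
  have k3 : IsUnit ((τ, 1) : (S → ℂ) × (R → ℂ)) := isUnit_T.2 ⟨fun i (e : τ i = 0) => by
    have : (1 : ℝ) ≤ ‖τ i‖ * C := ge_of_tendsto'
      ((tendsto_pi_nhds.1 k2 i).norm.mul_const C) fun n => by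
        rw [← norm_one (α := ℂ), ← mul_inv_cancel₀ ((isUnit_T.1 (h1 (φ n))).1 i), norm_mul]
        exact mul_le_mul_of_nonneg_left (hC _ i).2 (norm_nonneg _)
    norm_num [e] at this, fun _ => one_ne_zero⟩
  have k0 : Tendsto (fun n => (((a (φ n)).1, (1 : R → ℂ)), x (φ n))) atTop (𝓝 ((τ, 1), x₀)) :=
    (k2.prodMk_nhds tendsto_const_nhds).prodMk_nhds (h5.comp k1.tendsto_atTop)
  have k4 : Tendsto (fun n => F.actT ((a (φ n)).1, 1) (x (φ n))) atTop (𝓝 (F.actT (τ, 1) x₀)) :=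
    ((F.an_actT (t := Prod.fst) (z := Prod.snd) (q := ((τ, 1), x₀)) analyticAt_fst analyticAt_snd
      k3).continuousAt.tendsto.comp k0 :)
  have k5 : ∀ j, Tendsto (fun n => (F.actT (1, (a (φ n)).2) ((F.actT (τ, 1) x₀).1,
      (F.actT ((a (φ n)).1, 1) (x (φ n))).2)).2 j) atTop (𝓝 (x₁.2 j)) := fun j =>
    (tendsto_pi_nhds.1 ((continuous_snd.tendsto _).comp (h6.comp k1.tendsto_atTop)) j).congr
      fun n => by simp [Wt.actT, mul_assoc, mul_left_comm]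
  obtain ⟨C', hC'⟩ := h.proper (fun n => (a (φ n)).2) _ x₁ (fun n => (Prod.isUnit_iff.1 (h1 _)).2)
    (h.cone_act k3 h3) h4 (fun n => (F.actT ((a (φ n)).1, 1) (x (φ n))).2)
    ((continuous_snd.tendsto _).comp k4 :) fun j _ => k5 j
  obtain ⟨n, k5, k6⟩ := (hC'.and
    ((h7.comp k1.tendsto_atTop).eventually_gt_atTop (max (max C 0) (max C' 0)))).exists
  exact k6.not_ge (max_le_max (k _) ((pi_norm_le_iff_of_nonneg (le_max_right _ _)).2 fun i =>
    (k5 i).1.trans (le_max_left _ _)))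

/-- **The tori act freely and properly on the cone.** -/
theorem Good.fp (h : F.Good) : FP F.actT F.cone :=
  fp_of (fun _ ha _ => h.cone_act ha) h.lc_cone (fun a ha z hz e => by
    have := h.freeB _ (Prod.isUnit_iff.1 ha).1 _ hz.1 (congrArg Prod.fst e)
    exact Prod.ext this (h.free _ (Prod.isUnit_iff.1 ha).2 z hz (this ▸ e))) h.prp

theorem Good.fp_of (h : F.Good) {A : Set _} (e : A ⊆ F.cone)
    (hi : ∀ t, IsUnit t → ∀ z ∈ A, F.actT t z ∈ A) (hl : IsLocallyClosed A) : FP F.actT A :=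
  h.fp.mono e hi hl

theorem Good.fp_dvs (h : F.Good) (δ : J → ℕ) : FP F.actT (F.dvs δ) :=
  h.fp_of (fun _ h => h.1) (fun t ht z hz => ⟨h.cone_act ht hz.1, fun j hj => by
    rw [Wt.actT_snd, hz.2 j hj, mul_zero]⟩)
    (h.lc_cone.inter (isClosed_fld {j | δ j ≠ 0}).isLocallyClosed)

theorem Good.nice (h : F.Good) : P291Z.Nice (F.X F.cone) := haveI := h.fp; inferInstance

/-- The total space of a family over a compact base is compact. -/
theorem Good.compact (h : F.Good) (hc : F.Cp) : CompactSpace (F.X F.cone) := by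
  haveI := h.fpB
  haveI := h.fpB.lc
  obtain ⟨L, h1, h2⟩ := exists_isCompact_lift
    (Sp.isOpenQuotientMap_mk (act := F.actL) (S := F.B)) isCompact_univ
  obtain ⟨C, h3, h4, h5⟩ := h.cpt (Sp.val '' L) (by rintro _ ⟨x, -, rfl⟩; exact x.val_mem)
    (h1.image Sp.continuous_val)
  haveI := isCompact_iff_compactSpace.1 h4
  refine ⟨(isCompact_range (Tq.continuous_mk.comp (continuous_inclusion h3))).of_isClosed_subset
    isClosed_univ fun z _ => ?_⟩
  obtain ⟨⟨z, hz⟩, rfl⟩ := mk_surj z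
  obtain ⟨l, h6, h7⟩ := h2 (mem_univ (Sp.mk (Sp.of F.actL z.1 hz.1)))
  obtain ⟨g, rfl⟩ := Sp.mk_eq_iff.1 h7.symm
  have k : IsUnit ((g, 1) : (S → ℂ) × (R → ℂ)) := Prod.isUnit_iff.2 ⟨g.isUnit, isUnit_one⟩
  obtain ⟨t, h8, h9⟩ := h5 _ (h.cone_act k hz) ⟨_, h6, rfl⟩
  exact ⟨⟨_, h9⟩, (mk_act (Prod.isUnit_iff.2 ⟨isUnit_one, h8⟩) (h.cone_act k hz) _).trans
    (mk_act k hz _)⟩

/-- Closed invariant parts are compact. -/
theorem Good.compact_of (h : F.Good) (hc : F.Cp) {A C : Set _} (e : A = F.cone ∩ C)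
    (hC : IsClosed C) (hi : ∀ t, IsUnit t → ∀ z ∈ A, F.actT t z ∈ A) : CompactSpace (F.X A) := by
  subst e
  haveI := h.fp
  haveI := h.fp_of inter_subset_left hi (h.lc_cone.inter hC.isLocallyClosed)
  haveI := h.compact hc
  exact (isClosedEmbedding_qinc (act := F.actT) inter_subset_left (by
    rw [Subtype.preimage_coe_self_inter]
    exact hC.preimage continuous_subtype_val)).compactSpace

theorem Good.compact_dvs (h : F.Good) (hc : F.Cp) (δ : J → ℕ) : CompactSpace (F.X (F.dvs δ)) :=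
  h.compact_of hc rfl (isClosed_fld {j | δ j ≠ 0}) (h.fp_dvs δ).mem

omit [DecidableEq R] in
/-- the projection to the parameter space -/
theorem eqh_fst (F : Fam S Λ R J K) : Eqh F.actT F.actL F.cone F.B Prod.fst Prod.fst :=
  ⟨⟨rfl, fun _ _ _ _ => rfl, fun _ _ => continuousAt_fst⟩, fun _ h => h.1, continuousOn_fst,
    fun _ _ _ _ => rfl⟩

end Fam

end Vale.Agent.P269
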