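import Vale.Agent.P287Q.G.Coh.QM
import Vale.Agent.P287Q.G.Prj.TgtM

/-!
# The cohomology does not depend on the presentation
-/

set_option linter.unusedSectionVars false
set_option linter.style.haveILetI false

namespace Vale.Agent.P269

open Set Topology Filter P291Z Holo Mono Coh Tq MvPolynomial
open Function hiding eval

theorem Orb.Ori.deg_le {X : Type} [TopologicalSpace X] [Nice X] [Nonempty X] {d d' : ℤ}
    {β β' : BM X} (h : Orb.Ori d β) (h' : Orb.Ori d' β') : d ≤ d' := not_lt.1 fun e => by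
  obtain ⟨a, -, ha⟩ := h.gen (Classical.arbitrary X)
  exact ha (by rw [h'.eq_zero_of_lt h.deg e, ev_eq, LinearMap.zero_apply])

namespace Tq

variable {A A' W W' : Type} [NormedRing A] [NormedAlgebra ℂ A] [NormedAddCommGroup W]
  [NormedSpace ℂ W] [NormedRing A'] [NormedAlgebra ℂ A'] [NormedAddCommGroup W'] [NormedSpace ℂ W']
  [FiniteDimensional ℂ A] [FiniteDimensional ℂ W] [FiniteDimensional ℂ A'] [FiniteDimensional ℂ W']
  {act : A → W → W} {act' : A' → W' → W'} {S : Set W} {S' : Set W'} {f : W → W'} {θ : A → A'}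
  [IsAct act univ] [IsAct act' univ] {n m : ℤ}

theorem QM.of_dim [h : FP act S] (lin : ∀ a, IsUnit a → IsLinearMap ℂ (act a))
    [c : CompactSpace (Quo act S)] {d : ℕ} (hd : Dim act S d) : QM act S d :=
  ⟨h, lin, c, hd, fun e => absurd e (by omega)⟩

variable (h : QM act S n) (h' : QM act' S' m) (φ : Hol act act' S S' θ f) (hb : Bijective φ.q)
include h h' hb

theorem QM.homeo : IsHomeomorph φ.q :=
  haveI := h.cpt
  haveI := h'.fp
  isHomeomorph_iff_continuous_bijective.2 ⟨φ.q.continuous, hb⟩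

/-- isomorphic manifolds have the same dimension -/
theorem QM.of_bij : QM act' S' n := by
  rcases S.eq_empty_or_nonempty with e | ⟨x, hx⟩
  · have e' : S' = ∅ := eq_empty_of_forall_notMem fun y hy => by
      obtain ⟨z, -⟩ := hb.2 (Quo.mk act' ⟨y, hy⟩)
      exact e.subset z.out.2
    exact ⟨h'.fp, h'.lin, h'.cpt, fun y hy => (e'.subset hy).elim, fun _ => e'⟩
  · have := h.fp
    have := h'.fp
    have : Nonempty (Quo act S) := ⟨Quo.mk act ⟨x, hx⟩⟩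
    have k := h'.ori.res (h.homeo h' φ hb).isOpenEmbedding
    have := h.ori.deg_le k
    have := k.deg_le h.ori
    rwa [show n = m by omega]

theorem QM.J_map' (b : H (Quo act' S')) : h.ps.J (H.map φ.q b) = h'.ps.J b :=
  h.J_map (h.of_bij h' φ hb) φ hb b

theorem QM.isDeg_map {k : ℤ} {b : H (Quo act' S')} : H.IsDeg k (H.map φ.q b) ↔ H.IsDeg k b := by
  refine ⟨fun e => ?_, fun e => e.map _⟩
  let g := (h.homeo h' φ hb).homeomorph _
  have := e.map (g.symm : C(Quo act' S', Quo act S))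
  rwa [H.map_map, H.map_id g.apply_symm_apply] at this

end Tq

variable {S Λ R R' J J' K K' I : Type} [Fintype S] [Fintype Λ] [Fintype R] [Fintype R'] [Fintype J]
  [Fintype J'] [Fintype K] [Fintype K'] [Fintype I]

/-- The homomorphism of tori given by a matrix. -/
noncomputable def thM (M : R' → R → ℤ) (t : (S → ℂ) × (R → ℂ)) : (S → ℂ) × (R' → ℂ) :=
  (t.1, fun r' => ∏ r, t.2 r ^ M r' r)

theorem chT_thM (M : R' → R → ℤ) (ψ : S → ℤ) (χ : R' → ℤ) {t : (S → ℂ) × (R → ℂ)} (ht : IsUnit t) :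
    chT ψ χ (thM M t) = chT ψ (fun r => ∑ r', χ r' * M r' r) t := by
  have a := (isUnit_T.1 ht).2
  simp only [chT, thM, ← Finset.prod_zpow, ← zpow_mul]
  rw [Finset.prod_comm]
  simp only [zpow_sum_ne (a _), mul_comm]

theorem hm_thM (M : R' → R → ℤ) : Hm (thM (S := S) M) :=
  ⟨Prod.ext rfl (funext fun _ => by simp [thM]),
    fun _ _ _ _ => Prod.ext rfl (funext fun _ => prod_zpow_mul _ _ _),
    fun _ ha => continuousAt_fst.prodMk (continuousAt_pi.2 fun _ =>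
      (an_prod_zpow analyticAt_snd (isUnit_T.1 ha).2 _).continuousAt)⟩

theorem PrH.evz_eq (z : (Λ → ℂ) × (J → ℂ)) (f : MvPolynomial J (MvPolynomial Λ ℂ)) : evz z f =
    ∑ α ∈ f.support, (∑ β ∈ (coeff α f).support, coeff β (coeff α f) * ∏ i, z.1 i ^ β i) *
      ∏ j, z.2 j ^ α j := by
  rw [evz, eval_map, eval₂_eq']
  simp only [eval_eq']

theorem PrH.an_evσ (σ : J' → MvPolynomial J (MvPolynomial Λ ℂ)) (z) : AnalyticAt ℂ (evσ σ) z := by
  refine analyticAt_fst.prod (analyticAt_pi_iff.2 fun j => ?_)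
  simp only [PrH.evz_eq]
  exact Finset.analyticAt_fun_sum _ fun _ _ => (Finset.analyticAt_fun_sum _ fun _ _ =>
    analyticAt_const.mul (Finset.analyticAt_fun_prod _ fun _ _ =>
      (analyticAt_pi_iff.1 analyticAt_fst _).pow _)).mul
    (Finset.analyticAt_fun_prod _ fun _ _ => (analyticAt_pi_iff.1 analyticAt_snd _).pow _)

namespace Wt

/-- The part of `Fam.Pres` that concerns the invariant sets `A` and `A'`. -/
structure Prs (W : Wt S Λ R J) (W' : Wt S Λ R' J') (A : Set ((Λ → ℂ) × (J → ℂ)))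
    (A' : Set ((Λ → ℂ) × (J' → ℂ))) (φ : J → J') (s : I → J') (M : R' → R → ℤ)
    (σ : J' → MvPolynomial J (MvPolynomial Λ ℂ)) : Prop where
  wl : W'.wl = W.wl
  σ_φ : ∀ j, σ (φ j) = MvPolynomial.X j
  σ_s : ∀ i, σ (s i) = 1
  hom : ∀ j', ∀ α ∈ (σ j').support, ∀ r, ∑ j, α j * W.w j r = ∑ r', W'.w j' r' * M r' r
  homS : ∀ j', ∀ α ∈ (σ j').support, ∀ β ∈ (coeff α (σ j')).support, ∀ a,
    ∑ j, α j * W.wt j a + ∑ x, β x * W.wl x a = W'.wt j' a
  lat_ker : ∀ d' : R' → ℤ, (∀ i, ∑ r', W'.w (s i) r' * d' r' = 0) →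
    ∃ d : R → ℤ, d' = fun r' => ∑ r, M r' r * d r
  lat_onto : ∀ n : I → ℤ, ∃ d' : R' → ℤ, ∀ i, ∑ r', W'.w (s i) r' * d' r' = n i
  cone : ∀ z', z' ∈ A' ↔ ∃ t, IsUnit t ∧ ∃ z ∈ A, z' = W'.actT (1, t) (evσ σ z)

namespace Prs

variable {W : Wt S Λ R J} {W' : Wt S Λ R' J'} {A A₁ : Set ((Λ → ℂ) × (J → ℂ))}
  {A' A₁' : Set ((Λ → ℂ) × (J' → ℂ))} {φ : J → J'} {s : I → J'} {M : R' → R → ℤ}
  {σ : J' → MvPolynomial J (MvPolynomial Λ ℂ)} (h : W.Prs W' A A' φ s M σ) {n m : ℤ}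
include h

/-- other sets -/
theorem set (e : ∀ z', z' ∈ A₁' ↔ ∃ t, IsUnit t ∧ ∃ z ∈ A₁, z' = W'.actT (1, t) (evσ σ z)) :
    W.Prs W' A₁ A₁' φ s M σ := { h with cone := e }

/-- invariant subsets -/
theorem sub (e : A₁' ⊆ A') (i : ∀ t, IsUnit t → ∀ z ∈ A₁', W'.actT (1, t) z ∈ A₁')
    (e' : ∀ z, z ∈ A₁ ↔ z ∈ A ∧ evσ σ z ∈ A₁') : W.Prs W' A₁ A₁' φ s M σ := by
  refine h.set fun z' => ⟨fun k => ?_, fun ⟨t, a, z, b, c⟩ => c ▸ i t a _ ((e' z).1 b).2⟩
  obtain ⟨_, ⟨t, rfl⟩, z, b, c⟩ := (h.cone z').1 (e k)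
  refine ⟨t, t.isUnit, z, (e' z).2 ⟨b, ?_⟩, c⟩
  have := i _ t⁻¹.isUnit _ k
  rwa [c, ← actT_mul, Prod.mk_mul_mk, mul_one, Units.inv_mul, Prod.mk_one_one, actT_one] at this

theorem evσ_act {t : (S → ℂ) × (R → ℂ)} (ht : IsUnit t) (z) :
    evσ σ (W.actT t z) = W'.actT (thM M t) (evσ σ z) := by
  have a := isUnit_T.1 ht
  refine Prod.ext (funext fun _ => by simp only [evσ, actT, actL, h.wl, thM]) (funext fun j => ?_)
  rw [actT_snd, chT_thM _ _ _ ht]
  simp only [evσ, PrH.evz_eq, actT, actL, Finset.mul_sum, Finset.sum_mul,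
    mul_pow, Finset.prod_mul_distrib, prod_pow_zpow a.1, prod_pow_zpow a.2, chT]
  refine Finset.sum_congr rfl fun α hα => Finset.sum_congr rfl fun β hβ => ?_
  simp only [h.hom j α hα, ← h.homS j α hα β hβ, zpow_add₀ (a.1 _), Finset.prod_mul_distrib]
  ring

theorem maps : MapsTo (evσ σ) A A' := fun z hz =>
  (h.cone _).2 ⟨1, isUnit_one, z, hz, (W'.actT_one _).symm⟩

theorem hol : Hol W.actT W'.actT A A' (thM M) (evσ σ) :=
  .of_an (hm_thM M) h.maps (fun z _ => PrH.an_evσ σ z) fun _ ht z _ => h.evσ_act ht z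

theorem exists_thM {b : R' → ℂ} (hb : IsUnit b) (e : ∀ i, ∏ r, b r ^ W'.w (s i) r = 1) :
    ∃ t : R → ℂ, IsUnit t ∧ b = fun r' => ∏ r, t r ^ M r' r := by
  classical
  have a := isUnit_pi_iff.1 hb
  choose d hd using fun i => h.lat_onto (Pi.single i 1)
  choose p hp using fun q => h.lat_ker (Pi.single q 1 - ∑ i, W'.w (s i) q • d i) fun i => by
    simp only [Pi.sub_apply, Finset.sum_apply, Pi.smul_apply, smul_eq_mul, mul_sub,
      Finset.sum_sub_distrib, Finset.mul_sum, mul_left_comm (W'.w (s i) _)]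
    rw [Finset.sum_comm (f := fun x y => _ * (_ * d y x))]
    simp [← Finset.mul_sum, hd, Pi.single_apply]
  refine ⟨fun r => ∏ q, b q ^ p q r, isUnit_pi_iff.2 fun _ => prod_zpow_ne a _, funext fun r' => ?_⟩
  have h1 : ∀ q, ∑ r, p q r * M r' r = (Pi.single q 1 : R' → ℤ) r' - ∑ i, W'.w (s i) q * d i r' :=
    fun q => by simpa [mul_comm] using (congrFun (hp q) r').symm
  simp only [← Finset.prod_zpow, ← zpow_mul]
  rw [Finset.prod_comm]
  simp only [← zpow_sum_ne (a _), h1]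
  simp only [zpow_sub₀ (a _), Finset.prod_div_distrib, zpow_sum_ne (a _), zpow_mul]
  rw [Finset.prod_comm (f := fun x y => (b x ^ W'.w (s y) x) ^ _)]
  simp [Finset.prod_zpow, e, Pi.single_apply]

theorem inj {x y b} (hb : IsUnit b) (e : evσ σ y = W'.actT b (evσ σ x)) :
    ∃ a, IsUnit a ∧ y = W.actT a x := by
  have a := isUnit_T.1 hb
  have h1 : IsUnit (b.1, (1 : R → ℂ)) := isUnit_T.2 ⟨a.1, fun _ => one_ne_zero⟩
  have h2 : W'.actT b (evσ σ x) = W'.actT (1, b.2) (evσ σ (W.actT (b.1, 1) x)) := by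
    rw [h.evσ_act h1, ← actT_mul]
    exact congrArg (W'.actT · _) (Prod.ext (one_mul _).symm (funext fun _ => by simp [thM]))
  obtain ⟨t, ht, h3⟩ := h.exists_thM (isUnit_pi_iff.2 a.2) fun i => by
    simpa [evσ, evz, actT, h.σ_s] using (congrFun (congrArg Prod.snd (e.trans h2)) (s i)).symm
  have h4 : IsUnit (b.1, t) := isUnit_T.2 ⟨a.1, isUnit_pi_iff.1 ht⟩
  have h5 := e.trans ((congrArg (W'.actT · _) (show b = thM M (b.1, t) from Prod.ext rfl h3)).trans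
    (h.evσ_act h4 x).symm)
  exact ⟨_, h4, Prod.ext (congrArg Prod.fst h5 :) (funext fun j => by
    simpa [evσ, evz, h.σ_φ] using congrFun (congrArg Prod.snd h5) (φ j))⟩

theorem bij : Bijective h.hol.q :=
  ⟨h.hol.q_injective fun _ _ _ _ _ => h.inj, h.hol.q_surjective fun y hy =>
    let ⟨_, a, z, b, c⟩ := (h.cone y).1 hy
    ⟨z, b, _, isUnit_T.2 ⟨fun _ => one_ne_zero, isUnit_pi_iff.1 a⟩, c⟩⟩

theorem compact [CompactSpace (W.X A)] : CompactSpace (W'.X A') :=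
  h.bij.2.compactSpace h.hol.q.continuous

theorem pb_eq (c : H (W'.X A')) : W.pb W' (evσ σ) A c = H.map h.hol.q c := Wt.pb_eq _ c

theorem pb_lc [FP W.actT A] [FP W'.actT A'] (ψ χ) :
    W.pb W' (evσ σ) A (W'.lc A' ψ χ) = W.lc A ψ fun r => ∑ r', χ r' * M r' r :=
  Wt.pb_lc h.hol.toEqh fun _ => chT_thM M ψ χ

variable (q : W.QM A n) (q' : W'.QM A' m)
include q q'

theorem qm : W'.QM A' n := q.of_bij q' h.hol h.bij

theorem intX_pb (c : H (W'.X A')) : W.intX A (W.pb W' (evσ σ) A c) = W'.intX A' c := by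
  rw [h.pb_eq, ← q.J_eq, ← q'.J_eq, q.J_map' q' h.hol h.bij]

/-- **the cohomology of two presentations** -/
theorem iso : ∃ g : H (W'.X A') ≃ₐ[ℂ] H (W.X A), (∀ c, g c = W.pb W' (evσ σ) A c) ∧
    (∀ c, W.intX A (g c) = W'.intX A' c) ∧ (∀ k c, H.IsDeg k (g c) ↔ H.IsDeg k c) ∧
    ∀ ψ χ, g (W'.lc A' ψ χ) = W.lc A ψ fun r => ∑ r', χ r' * M r' r :=
  haveI := q.fp
  haveI := q'.fp
  ⟨.ofBijective (H.mapA h.hol.q) (q.bij_map (h.qm q q') h.hol h.bij), fun c => (h.pb_eq c).symm,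
    fun c => (congrArg _ (h.pb_eq c).symm).trans (h.intX_pb q q' c),
    fun _ _ => q.isDeg_map q' h.hol h.bij, fun ψ χ => (h.pb_eq _).symm.trans (h.pb_lc ψ χ)⟩

end Prs

end Wt

namespace Fam

variable {F : Fam S Λ R J K} {F' : Fam S Λ R' J' K'} {φ : J → J'} {s : I → J'} {M σ}

theorem Pres.prs (h : F.Pres F' φ s M σ) : F.Prs F'.toWt F.cone F'.cone φ s M σ :=
  ⟨h.wl, h.σ_φ, h.σ_s, h.hom, h.homS, h.lat_ker, h.lat_onto, h.cone⟩

theorem Nice.qm [DecidableEq R] {δ} (h : F.Nice δ) [CompactSpace (F.X F.cone)] :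
    ∃ n, F.QM F.cone n :=
  haveI := h.toGood.fp
  h.exists_dim.elim fun _ k => ⟨_, .of_dim F.lin_actT k⟩

/-- `St.PresH` for arbitrary contact orders -/
theorem presH [DecidableEq R] [DecidableEq R'] (h : F.Prs F'.toWt F.cone F'.cone φ s M σ) {δ δ'}
    (hF : F.Nice δ) (hF' : F'.Nice δ') (hc : F.Cp) :
    ∃ g : H (F'.X F'.cone) ≃ₐ[ℂ] H (F.X F.cone), (∀ c, g c = F.pb F'.toWt (evσ σ) _ c) ∧
      (∀ c, F.intX _ (g c) = F'.intX _ c) ∧ (∀ m c, H.IsDeg m (g c) ↔ H.IsDeg m c) ∧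
      ∀ ψ χ, g (F'.lc _ ψ χ) = F.lc _ ψ fun r => ∑ r', χ r' * M r' r := by
  haveI := hF.toGood.compact hc
  haveI := h.compact
  obtain ⟨_, q⟩ := hF.qm
  obtain ⟨_, q'⟩ := hF'.qm
  exact h.iso q q'

end Fam

theorem St.presH : St.PresH := fun _ _ _ _ _ _ h _ => Fam.presH h.prs

end Vale.Agent.P269
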